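import Mathlib
import Vale.Agent.P032.S5.H410.MinA

/-!
# Closed totally disconnected sets do not separate open connected sets of the plane

`preconnected_diff` : if `O` is open and preconnected and `K` is closed and totally disconnected then `O \ K` is
preconnected.
-/

open Set Filter Topology Metric

noncomputable section

namespace Vale.Agent.P032.H941

/-- a continuous function without zeros on the plane is not `z - a` outside a disc -/
theorem no_ext {a x₀ : ℂ} {R : ℝ} (h : ℂ → ℂ) (hc : Continuous h) (h0 : ∀ z, h z ≠ 0)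
    (hout : ∀ z, R < dist z x₀ → h z = z - a) : False := by
  have hsc : IsSimplyConnected (univ : Set ℂ) := by
    have : ContractibleSpace (univ : Set ℂ) :=
      (convex_univ (𝕜 := ℝ)).contractibleSpace univ_nonempty
    exact (inferInstance : SimplyConnectedSpace (univ : Set ℂ))
  obtain ⟨f, hf, hfe⟩ := Complex.exists_continuousOn_eqOn_exp_comp (X := ℂ) (U := univ) hsc isOpen_univ
    (g := h) hc.continuousOn (by simpa using h0)
  have hfc : Continuous f := continuousOn_univ.1 hf
  set ρ : ℝ := |R| + dist a x₀ + 1 with hρ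
  have hρ0 : 0 < ρ := by positivity
  -- the logarithm along the circle
  set g : ℝ → ℂ := fun t => f (a + ρ * Complex.exp (t * Complex.I)) - (Real.log ρ + t * Complex.I) with hg
  have hgc : Continuous g := by
    rw [hg]
    fun_prop
  have hval : ∀ t, Complex.exp (g t) = 1 := by
    intro t
    have h1 : Complex.exp (f (a + ρ * Complex.exp (t * Complex.I))) = ρ * Complex.exp (t * Complex.I) := by
      have h2 := hfe (mem_univ (a + ρ * Complex.exp (t * Complex.I)))
      simp only [Function.comp] at h2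
      rw [h2, hout]
      · ring
      · have h3 : dist (a + ρ * Complex.exp (t * Complex.I)) a = ρ := by
          rw [dist_eq_norm, add_sub_cancel_left, norm_mul, Complex.norm_exp_ofReal_mul_I, mul_one,
            Complex.norm_real, Real.norm_of_nonneg hρ0.le]
        have h4 := dist_triangle_right (a + ρ * Complex.exp (t * Complex.I)) a x₀
        have h5 : dist (a + ρ * Complex.exp (t * Complex.I)) a
          ≤ dist (a + ρ * Complex.exp (t * Complex.I)) x₀ + dist a x₀ := h4
        have h6 := le_abs_self R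
        linarith
    rw [hg]
    simp only
    rw [Complex.exp_sub, Complex.exp_add, h1, ← Complex.ofReal_exp, Real.exp_log hρ0]
    have h7 : (ρ : ℂ) ≠ 0 := by exact_mod_cast hρ0.ne'
    exact div_self (mul_ne_zero h7 (Complex.exp_ne_zero _))
  have hint : ∀ t, ∃ n : ℤ, g t = n * (2 * Real.pi * Complex.I) := fun t =>
    (Complex.exp_eq_one_iff).1 (hval t)
  have hconst : ∀ t, g t = g 0 := by
    choose n hn using hint
    have hnc : Continuous fun t => (n t : ℝ) := by
      have h1 : (fun t => (n t : ℝ)) = fun t => (g t).im / (2 * Real.pi) := by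
        ext t
        rw [hn t]
        have : (((n t : ℤ) : ℂ) * (2 * Real.pi * Complex.I)).im = n t * (2 * Real.pi) := by
          simp
        rw [this]
        field_simp
      rw [h1]
      exact (Complex.continuous_im.comp hgc).div_const _
    have hnc' : Continuous n := by
      rw [Int.isClosedEmbedding_coe_real.isInducing.continuous_iff]
      exact hnc
    have h2 : IsLocallyConstant n := (IsLocallyConstant.iff_continuous n).2 hnc'
    intro t
    rw [hn t, hn 0, h2.apply_eq_of_isPreconnected isPreconnected_univ (mem_univ t) (mem_univ 0)]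
  have h1 := hconst (2 * Real.pi)
  rw [hg] at h1
  simp only at h1
  have h2 : Complex.exp (((2 * Real.pi : ℝ) : ℂ) * Complex.I) = 1 := by
    push_cast
    exact Complex.exp_two_pi_mul_I
  have h3 : Complex.exp (((0 : ℝ) : ℂ) * Complex.I) = 1 := by simp
  rw [h2, h3] at h1
  have h4 : (((2 * Real.pi : ℝ) : ℂ) * Complex.I) = ((0 : ℝ) : ℂ) * Complex.I := by
    have := sub_right_injective h1
    exact add_left_cancel this
  have h5 := congrArg Complex.im h4
  simp at h5

/-- off the segment the quotient `(z - a) / (z - b)` is in the slit plane -/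
theorem quot_slit {a b z : ℂ} (hz : z ∉ segment ℝ a b) : (z - a) / (z - b) ∈ Complex.slitPlane := by
  by_contra hcon
  have hzb : z ≠ b := by
    rintro rfl
    exact hz (right_mem_segment ℝ a z)
  have hzb' : z - b ≠ 0 := sub_ne_zero.2 hzb
  rw [Complex.mem_slitPlane_iff, not_or, not_lt, ne_eq, not_not] at hcon
  obtain ⟨h1, h2⟩ := hcon
  set t : ℝ := -((z - a) / (z - b)).re with ht
  have ht0 : 0 ≤ t := by linarith
  have h3 : (z - a) / (z - b) = -(t : ℂ) := by
    apply Complex.ext
    · simp [ht]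
    · simp [h2]
  rw [div_eq_iff hzb'] at h3
  have ht1 : 0 < 1 + t := by linarith
  apply hz
  refine ⟨1 / (1 + t), t / (1 + t), by positivity, by positivity, by field_simp, ?_⟩
  have h4 : ((1 + t : ℝ) : ℂ) ≠ 0 := by exact_mod_cast ht1.ne'
  rw [Complex.real_smul, Complex.real_smul]
  push_cast at h4 ⊢
  field_simp
  linear_combination -h3

/-- **the local form** -/
theorem no_sep_disc {K : Set ℂ} (hK : IsClosed K) (hKd : IsTotallyDisconnected K) {x₀ : ℂ} {R : ℝ}
    {P Q : Set ℂ} (hP : IsOpen P) (hQ : IsOpen Q) (hPQ : Disjoint P Q) (hPK : Disjoint P K) (hQK : Disjoint Q K)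
    (hcov : closedBall x₀ R \ K ⊆ P ∪ Q) {a b : ℂ} (ha : a ∈ P) (hb : b ∈ Q) (haR : a ∈ ball x₀ R)
    (hbR : b ∈ ball x₀ R) : False := by
  classical
  set F : ℂ → ℂ := fun z => (z - a) / (z - b) with hF
  set S : Set ℂ := segment ℝ a b with hS
  have hScl : IsClosed S := by
    rw [hS, segment_eq_image]
    exact (isCompact_Icc.image (by fun_prop)).isClosed
  have hSR : S ⊆ ball x₀ R := (convex_ball x₀ R).segment_subset haR hbR
  have hFc : ∀ z, z ≠ b → ContinuousAt F z := fun z hz =>
    (continuousAt_id.sub continuousAt_const).div (continuousAt_id.sub continuousAt_const) (sub_ne_zero.2 hz)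
  have hKa : ∀ z ∈ K, z ≠ a := fun z hz e => disjoint_left.1 hPK ha (e ▸ hz)
  have hKb : ∀ z ∈ K, z ≠ b := fun z hz e => disjoint_left.1 hQK hb (e ▸ hz)
  have hF0 : ∀ z ∈ K, F z ≠ 0 := fun z hz => div_ne_zero (sub_ne_zero.2 (hKa z hz)) (sub_ne_zero.2 (hKb z hz))
  have hlogc : ∀ z, z ∉ S → ContinuousAt (fun w => Complex.log (F w)) z := by
    intro z hz
    have hzb : z ≠ b := by
      rintro rfl
      exact hz (right_mem_segment ℝ a z)
    exact (hFc z hzb).clog (quot_slit hz)
  -- radii
  have hrad : ∀ d, ∃ r : ℝ, 0 < r ∧ (d ∉ S → ∀ w ∈ ball d r, w ∉ S) ∧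
      (d ∈ S → d ∈ K → ball d r ⊆ ball x₀ R ∧ ∀ w ∈ ball d r, w ≠ b ∧ F w / F d ∈ Complex.slitPlane) := by
    intro d
    by_cases hd : d ∈ S
    · by_cases hdK : d ∈ K
      · have h1 : ∀ᶠ w in 𝓝 d, w ∈ ball x₀ R := isOpen_ball.mem_nhds (hSR hd)
        have h2 : ∀ᶠ w in 𝓝 d, w ≠ b := isOpen_ne.mem_nhds (hKb d hdK)
        have h3 : ∀ᶠ w in 𝓝 d, F w / F d ∈ Complex.slitPlane := by
          refine ((hFc d (hKb d hdK)).div_const (F d)).preimage_mem_nhds (Complex.isOpen_slitPlane.mem_nhds ?_)
          rw [div_self (hF0 d hdK)]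
          exact Complex.one_mem_slitPlane
        obtain ⟨r, hr, hb'⟩ := Metric.eventually_nhds_iff_ball.1 (h1.and (h2.and h3))
        exact ⟨r, hr, fun h => absurd hd h, fun _ _ => ⟨fun w hw => (hb' w hw).1, fun w hw => (hb' w hw).2⟩⟩
      · exact ⟨1, one_pos, fun h => absurd hd h, fun _ h => absurd h hdK⟩
    · obtain ⟨r, hr, hb'⟩ := Metric.isOpen_iff.1 hScl.isOpen_compl d hd
      exact ⟨r, hr, fun _ w hw => hb' hw, fun h => absurd h hd⟩
  choose r hr0 hr1 hr2 using hrad
  obtain ⟨lab, hlab, hloc⟩ := S5.H410.exists_lab hK.isLocallyClosed hKd r (fun x _ => hr0 x)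
  -- the logarithm on `K`
  set g : ℂ → ℂ := fun w => if lab w ∈ S then Complex.log (F w / F (lab w)) + Complex.log (F (lab w))
    else Complex.log (F w) with hg
  have hgc : ContinuousOn g K := by
    intro w hw
    have h1 := hloc w hw
    set d := lab w with hd
    have hwd : w ∈ ball d (r d) := (hlab w hw).2
    have hdK : d ∈ K := (hlab w hw).1
    have h2 : (fun w' => if d ∈ S then Complex.log (F w' / F d) + Complex.log (F d) else Complex.log (F w'))
        =ᶠ[𝓝[K] w] g := by
      have : ∀ᶠ w' in 𝓝[K] w, lab w' = d := eventually_nhdsWithin_iff.2 h1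
      filter_upwards [this] with w' hw'
      rw [hg]
      simp only [hw']
    refine ContinuousWithinAt.congr_of_eventuallyEq ?_ h2.symm (by rw [hg])
    refine ContinuousAt.continuousWithinAt ?_
    by_cases hdS : d ∈ S
    · simp only [if_pos hdS]
      obtain ⟨h3, h4⟩ := (hr2 d hdS hdK).2 w hwd
      exact (((hFc w h3).div_const _).clog h4).add continuousAt_const
    · simp only [if_neg hdS]
      exact hlogc w (hr1 d hdS w hwd)
  have hge : ∀ w ∈ K, Complex.exp (g w) = F w := by
    intro w hw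
    rw [hg]
    simp only
    split_ifs with h1
    · rw [Complex.exp_add, Complex.exp_log (div_ne_zero (hF0 w hw) (hF0 _ (hlab w hw).1)),
        Complex.exp_log (hF0 _ (hlab w hw).1)]
      exact div_mul_cancel₀ _ (hF0 _ (hlab w hw).1)
    · exact Complex.exp_log (hF0 w hw)
  have hgs : ∀ w ∈ K, w ∈ sphere x₀ R → g w = Complex.log (F w) := by
    intro w hw hws
    have h1 : lab w ∉ S := by
      intro h1
      have h2 := (hr2 _ h1 (hlab w hw).1).1 (hlab w hw).2
      rw [mem_sphere] at hws
      rw [mem_ball] at h2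
      linarith
    rw [hg]
    simp only [if_neg h1]
  have hsS : ∀ w ∈ sphere x₀ R, w ∉ S := by
    intro w hw h1
    have h2 := hSR h1
    rw [mem_sphere] at hw
    rw [mem_ball] at h2
    linarith
  -- the logarithm on `K ∪ sphere`
  set G₀ : ℂ → ℂ := fun w => if w ∈ K then g w else Complex.log (F w) with hG₀
  have hG₀K : EqOn G₀ g K := fun w hw => by rw [hG₀]; simp only [if_pos hw]
  have hG₀s : EqOn G₀ (fun w => Complex.log (F w)) (sphere x₀ R) := fun w hw => by
    by_cases h1 : w ∈ K
    · rw [hG₀K h1, hgs w h1 hw]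
    · rw [hG₀]; simp only [if_neg h1]
  have hG₀c : ContinuousOn G₀ (K ∪ sphere x₀ R) := by
    refine ContinuousOn.union_of_isClosed (hgc.congr hG₀K) ?_ hK isClosed_sphere
    exact ContinuousOn.congr (fun w hw => (hlogc w (hsS w hw)).continuousWithinAt) hG₀s
  obtain ⟨G, hG⟩ := ContinuousMap.exists_restrict_eq (hK.union isClosed_sphere)
    (⟨fun w => G₀ w, continuousOn_iff_continuous_domRestrict.1 hG₀c⟩ : C(↥(K ∪ sphere x₀ R), ℂ))
  have hGe : ∀ w ∈ K ∪ sphere x₀ R, G w = G₀ w := fun w hw =>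
    congrArg (fun f : C(↥(K ∪ sphere x₀ R), ℂ) => f ⟨w, hw⟩) hG
  have hGK : ∀ w ∈ K, Complex.exp (G w) = F w := fun w hw => by
    rw [hGe w (Or.inl hw), hG₀K hw, hge w hw]
  have hFs : ∀ w ∈ sphere x₀ R, F w ≠ 0 := fun w hw => Complex.slitPlane_ne_zero (quot_slit (hsS w hw))
  have hGs : ∀ w ∈ sphere x₀ R, Complex.exp (G w) = F w := fun w hw => by
    rw [hGe w (Or.inr hw), hG₀s hw, Complex.exp_log (hFs w hw)]
  have hsb : ∀ w ∈ sphere x₀ R, w ≠ b := by
    rintro w hw rfl
    exact hsS w hw (right_mem_segment ℝ a w)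
  -- the function without zeros
  set h : ℂ → ℂ := fun w => if w ∈ P ∩ closedBall x₀ R then (w - b) * Complex.exp (G w) else w - a with hh
  have hA1 : EqOn h (fun w => (w - b) * Complex.exp (G w)) (closedBall x₀ R ∩ Qᶜ) := by
    rintro w ⟨hw, hwQ⟩
    by_cases hwP : w ∈ P
    · rw [hh]; simp only [if_pos (show w ∈ P ∩ closedBall x₀ R from ⟨hwP, hw⟩)]
    · have hwK : w ∈ K := by
        by_contra hwK
        exact (hcov ⟨hw, hwK⟩).elim hwP hwQ
      rw [hh]; simp only [if_neg (show w ∉ P ∩ closedBall x₀ R from fun h => hwP h.1), hGK w hwK, hF]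
      rw [mul_div_cancel₀ _ (sub_ne_zero.2 (hKb w hwK))]
  have hA2 : EqOn h (fun w => w - a) (Pᶜ ∪ (ball x₀ R)ᶜ) := by
    rintro w hw
    by_cases hwP : w ∈ P ∩ closedBall x₀ R
    · have hws : w ∈ sphere x₀ R := by
        rcases hw with hw | hw
        · exact absurd hwP.1 hw
        · have h1 := hwP.2
          rw [mem_compl_iff, mem_ball, not_lt] at hw
          rw [mem_closedBall] at h1
          exact mem_sphere.2 (le_antisymm h1 hw)
      rw [hh]; simp only [if_pos hwP, hGs w hws, hF]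
      rw [mul_div_cancel₀ _ (sub_ne_zero.2 (hsb w hws))]
    · rw [hh]; simp only [if_neg hwP]
  have hhc : Continuous h := by
    rw [← continuousOn_univ]
    have hu : (univ : Set ℂ) = (closedBall x₀ R ∩ Qᶜ) ∪ (Pᶜ ∪ (ball x₀ R)ᶜ) := by
      symm
      rw [eq_univ_iff_forall]
      intro w
      by_cases h1 : w ∈ P
      · by_cases h2 : w ∈ ball x₀ R
        · exact Or.inl ⟨ball_subset_closedBall h2, fun h3 => disjoint_left.1 hPQ h1 h3⟩
        · exact Or.inr (Or.inr h2)
      · exact Or.inr (Or.inl h1)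
    rw [hu]
    refine ContinuousOn.union_of_isClosed (ContinuousOn.congr ?_ hA1) (ContinuousOn.congr ?_ hA2)
      (isClosed_closedBall.inter hQ.isClosed_compl) (hP.isClosed_compl.union isOpen_ball.isClosed_compl)
    · exact (by fun_prop : Continuous fun w => (w - b) * Complex.exp (G w)).continuousOn
    · exact (by fun_prop : Continuous fun w : ℂ => w - a).continuousOn
  have hh0 : ∀ w, h w ≠ 0 := by
    intro w
    rw [hh]
    simp only
    split_ifs with h1
    · refine mul_ne_zero (sub_ne_zero.2 ?_) (Complex.exp_ne_zero _)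
      rintro rfl
      exact disjoint_left.1 hPQ h1.1 hb
    · refine sub_ne_zero.2 ?_
      rintro rfl
      exact h1 ⟨ha, ball_subset_closedBall haR⟩
  refine no_ext (a := a) (x₀ := x₀) (R := R) h hhc hh0 fun w hw => ?_
  rw [hh]
  simp only
  rw [if_neg]
  rintro ⟨-, h1⟩
  rw [mem_closedBall] at h1
  linarith

/-- **closed totally disconnected sets do not separate open connected sets** -/
theorem preconnected_diff {K O : Set ℂ} (hK : IsClosed K) (hKd : IsTotallyDisconnected K) (hO : IsOpen O)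
    (hOc : IsPreconnected O) : IsPreconnected (O \ K) := by
  intro u v hu hv huv hneu hnev
  by_contra hcon
  have hd : (O \ K) ∩ (u ∩ v) = ∅ := not_nonempty_iff_eq_empty.1 hcon
  set P : Set ℂ := (O \ K) ∩ u with hP
  set Q : Set ℂ := (O \ K) ∩ v with hQ
  have hOK : IsOpen (O \ K) := hO.sdiff hK
  have hPo : IsOpen P := hOK.inter hu
  have hQo : IsOpen Q := hOK.inter hv
  have hPQ : Disjoint P Q := by
    rw [disjoint_left]
    rintro w ⟨h1, h2⟩ ⟨-, h3⟩
    exact (eq_empty_iff_forall_notMem.1 hd w) ⟨h1, h2, h3⟩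
  have hdense : ∀ x ∈ O, x ∈ closure (O \ K) := by
    intro x hx
    rw [mem_closure_iff_nhds]
    intro t ht
    obtain ⟨ε, hε, hball⟩ := Metric.mem_nhds_iff.1 (Filter.inter_mem ht (hO.mem_nhds hx))
    by_contra hne
    have h1 : ball x ε ⊆ K := by
      intro w hw
      by_contra hwK
      exact hne ⟨w, (hball hw).1, (hball hw).2, hwK⟩
    have h2 := hKd (ball x ε) h1 (convex_ball x ε).isPreconnected
    have h3 : x + ((ε / 2 : ℝ) : ℂ) ∈ ball x ε := by
      rw [mem_ball, dist_eq_norm, add_sub_cancel_left, Complex.norm_real, Real.norm_of_nonneg (by positivity)]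
      linarith
    have h4 := h2 (mem_ball_self hε) h3
    have h5 : ((ε / 2 : ℝ) : ℂ) = 0 := by
      have : x + 0 = x + ((ε / 2 : ℝ) : ℂ) := by rw [add_zero]; exact h4
      exact (add_left_cancel this).symm
    have h6 : ε / 2 = 0 := by exact_mod_cast h5
    linarith
  have hcov : ∀ x ∈ O, x ∈ closure P ∪ closure Q := by
    intro x hx
    rw [← closure_union]
    refine closure_mono ?_ (hdense x hx)
    intro w hw
    exact (huv hw).imp (fun h => ⟨hw, h⟩) fun h => ⟨hw, h⟩
  obtain ⟨p, hp, hpu⟩ := hneu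
  obtain ⟨q, hq, hqv⟩ := hnev
  obtain ⟨x₀, hx₀, hxP, hxQ⟩ := isPreconnected_closed_iff.1 hOc _ _ (isClosed_closure (s := P))
    (isClosed_closure (s := Q)) hcov ⟨p, hp.1, subset_closure ⟨hp, hpu⟩⟩ ⟨q, hq.1, subset_closure ⟨hq, hqv⟩⟩
  obtain ⟨R, hR, hball⟩ := Metric.nhds_basis_closedBall.mem_iff.1 (hO.mem_nhds hx₀)
  obtain ⟨a, haR, haP⟩ := mem_closure_iff_nhds.1 hxP _ (ball_mem_nhds x₀ hR)
  obtain ⟨b, hbR, hbQ⟩ := mem_closure_iff_nhds.1 hxQ _ (ball_mem_nhds x₀ hR)
  refine no_sep_disc hK hKd hPo hQo hPQ ?_ ?_ ?_ haP hbQ haR hbR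
  · rw [disjoint_left]
    rintro w ⟨h1, -⟩ h2
    exact h1.2 h2
  · rw [disjoint_left]
    rintro w ⟨h1, -⟩ h2
    exact h1.2 h2
  · rintro w ⟨h1, h2⟩
    have h3 : w ∈ O \ K := ⟨hball h1, h2⟩
    exact (huv h3).imp (fun h => ⟨h3, h⟩) fun h => ⟨h3, h⟩

end Vale.Agent.P032.H941
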