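import Vale.Agent.P032.H657.GermW2
import Vale.Agent.P032.S5.H483.IrrZ
import Vale.Agent.P032.H941.NonSep

/-!
# P032: the wall graph of an open connected germ (wild frame `Irr U T`, six colours)

The points with at least four colours form a closed totally disconnected set (`Irr.td`), and such a set does not
separate an open connected set (`preconnected_diff`).  So in H657/GermW2 the hypothesis `at most three colours` is
not needed for open sets `K`.

* `one_side'` : an open preconnected set on which no palette with at most three colours meets both `A` and `B`;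
* `exists_wall` : an open preconnected `K` near `x` with colours in `A ∪ B`, both occurring: some `v ∈ K` has
  `|T v| ≤ 3`, meets `A` and `B`, and contains no palette `T y`, `y` in a given finite subset of `S(x)`;
* `sector_part'` : for `i ∈ A`, `j ∈ B` some `y ∈ Y` has `T y ⊆ {i, j}`: then `K` has only colours of `A` or only
  colours of `B`.
-/

open Set Filter Topology Metric

noncomputable section

namespace Vale.Agent.P032.H941

open Vale.Agent.P032.Six Vale.Agent.P032.H657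

variable {U : Fin 6 → Set ℂ} {T : ℂ → Set (Fin 6)}

/-- an open preconnected set without the points of four and more colours is preconnected -/
theorem preconnected_three (h : Irr U T) {K : Set ℂ} (hKo : IsOpen K) (hK : IsPreconnected K) :
    IsPreconnected (K \ {x | 4 ≤ (T x).ncard}) :=
  preconnected_diff (h.isClosed_le_card 4) h.td hKo hK

/-- near every point of an open set `K` there are points of `K` with a given colour of its palette only -/
theorem exists_pure (h : Irr U T) {K : Set ℂ} (hKo : IsOpen K) {v : ℂ} (hv : v ∈ K) {i : Fin 6} (hi : i ∈ T v) :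
    ∃ w ∈ K, T w = {i} := by
  obtain ⟨w, hw, hwK⟩ := ((h.pure v i hi).and_eventually (hKo.mem_nhds hv)).exists
  exact ⟨w, hwK, hw⟩

/-- **an open preconnected set on which no palette with at most three colours meets both `A` and `B`** -/
theorem one_side' (h : Irr U T) {K : Set ℂ} (hKo : IsOpen K) (hK : IsPreconnected K) {A B : Set (Fin 6)}
    (hT : ∀ v ∈ K, T v ⊆ A ∪ B)
    (hno : ∀ v ∈ K, (T v).ncard ≤ 3 → ∀ i ∈ T v, ∀ j ∈ T v, i ∈ A → j ∈ B → False) :
    (∀ v ∈ K, T v ⊆ A) ∨ (∀ v ∈ K, T v ⊆ B) := by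
  have h1 := one_side h (preconnected_three h hKo hK) (A := A) (B := B) (fun v hv => hT v hv.1)
    (fun v hv i hi j hj hiA hjB => hno v hv.1 (by
      have h2 : ¬ 4 ≤ (T v).ncard := hv.2
      omega) i hi j hj hiA hjB)
  have key : ∀ C : Set (Fin 6), (∀ v ∈ K \ {x | 4 ≤ (T x).ncard}, T v ⊆ C) → ∀ v ∈ K, T v ⊆ C := by
    intro C hC v hv i hi
    obtain ⟨w, hwK, hw⟩ := exists_pure h hKo hv hi
    have h3 : w ∈ K \ {x | 4 ≤ (T x).ncard} := by
      refine ⟨hwK, fun h4 => ?_⟩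
      have h5 : 4 ≤ (T w).ncard := h4
      rw [hw, Set.ncard_singleton] at h5
      omega
    exact hC w h3 (by rw [hw]; exact mem_singleton i)
  exact h1.imp (key A) (key B)

/-- **walls.** `Y` a finite subset of `S(x)`. Near `x`: in an open preconnected set whose colours lie in `A ∪ B`,
neither in `A` nor in `B` alone, there is a point `v` with at most three colours, a colour of `A` and a colour of `B`,
whose palette contains no palette `T y`, `y ∈ Y`. -/
theorem exists_wall (h : Irr U T) {x : ℂ} {Y : Set ℂ} (hY : Y.Finite) (hYx : ∀ y ∈ Y, dist y x = 1) :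
    ∃ r > 0, ∀ K ⊆ ball x r, IsOpen K → IsPreconnected K → ∀ A B : Set (Fin 6), (∀ v ∈ K, T v ⊆ A ∪ B) →
      ¬ (∀ v ∈ K, T v ⊆ A) → ¬ (∀ v ∈ K, T v ⊆ B) →
        ∃ v ∈ K, (T v).ncard ≤ 3 ∧ (∃ i ∈ T v, i ∈ A) ∧ (∃ j ∈ T v, j ∈ B) ∧ ∀ y ∈ Y, ¬ T y ⊆ T v := by
  have h1 : ∀ᶠ v in 𝓝 x, ∀ y ∈ Y, T y ⊆ T v → 4 ≤ (T v).ncard :=
    (Filter.eventually_all_finite hY).2 fun y hy => h.no_layer (hYx y hy)
  obtain ⟨r, hr, hb⟩ := Metric.eventually_nhds_iff_ball.1 h1
  refine ⟨r, hr, fun K hKr hKo hK A B hT hA hB => ?_⟩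
  by_contra hcon
  push Not at hcon
  have h2 := one_side' h hKo hK hT (fun v hv h3 i hi j hj hiA hjB => by
    obtain ⟨y, hy, hyT⟩ := hcon v hv h3 ⟨i, hi, hiA⟩ ⟨j, hj, hjB⟩
    have := hb v (hKr hv) y hy hyT
    omega)
  exact h2.elim hA hB

/-- **General form**, without the bound on the number of colours. -/
theorem sector_part' (h : Irr U T) {x : ℂ} {Y : Set ℂ} (hY : Y.Finite) (hYx : ∀ y ∈ Y, dist y x = 1) :
    ∃ r > 0, ∀ K ⊆ ball x r, IsOpen K → IsPreconnected K → ∀ A B : Set (Fin 6), (∀ v ∈ K, T v ⊆ A ∪ B) →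
      (∀ i ∈ A, ∀ j ∈ B, ∃ y ∈ Y, T y ⊆ {i, j}) → (∀ v ∈ K, T v ⊆ A) ∨ (∀ v ∈ K, T v ⊆ B) := by
  obtain ⟨r, hr, hb⟩ := exists_wall h hY hYx
  refine ⟨r, hr, fun K hKr hKo hK A B hT hAB => ?_⟩
  by_contra hcon
  rw [not_or] at hcon
  obtain ⟨v, hv, -, ⟨i, hi, hiA⟩, ⟨j, hj, hjB⟩, hno⟩ := hb K hKr hKo hK A B hT hcon.1 hcon.2
  obtain ⟨y, hy, hyT⟩ := hAB i hiA j hjB
  refine hno y hy (hyT.trans ?_)
  rintro m (rfl | rfl)
  · exact hi
  · exact hj

/-- version with pure points: the colours `C` are exactly the colours occurring in `K` -/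
theorem exists_wall_occ (h : Irr U T) {x : ℂ} {Y : Set ℂ} (hY : Y.Finite) (hYx : ∀ y ∈ Y, dist y x = 1) :
    ∃ r > 0, ∀ K ⊆ ball x r, IsOpen K → IsPreconnected K → ∀ A B : Set (Fin 6), Disjoint A B →
      (∀ v ∈ K, T v ⊆ A ∪ B) → (∃ v ∈ K, ∃ i ∈ A, i ∈ T v) → (∃ v ∈ K, ∃ j ∈ B, j ∈ T v) →
        ∃ v ∈ K, (T v).ncard ≤ 3 ∧ (∃ i ∈ T v, i ∈ A) ∧ (∃ j ∈ T v, j ∈ B) ∧ ∀ y ∈ Y, ¬ T y ⊆ T v := by
  obtain ⟨r, hr, hb⟩ := exists_wall h hY hYx
  refine ⟨r, hr, fun K hKr hKo hK A B hAB hT hA hB => ?_⟩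
  refine hb K hKr hKo hK A B hT (fun h1 => ?_) (fun h1 => ?_)
  · obtain ⟨v, hv, j, hj, hjv⟩ := hB
    exact disjoint_left.1 hAB (h1 v hv hjv) hj
  · obtain ⟨v, hv, i, hi, hiv⟩ := hA
    exact disjoint_left.1 hAB hi (h1 v hv hiv)

end Vale.Agent.P032.H941
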